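import Vale.Agent.P263C25.Rows

/-!
# P263C: the Mayer-Vietoris coboundary for a space cut along two collared pieces

* `Dl X k x e` : the cocycle `e` of `M` is the coboundary of the classes `x b` of `N b`.
* `exists_dl`, `Dl.add`, `Dl.coh`, `Dl.cup`, `Dl.exact`, `Dl.bump`.
-/

open Topology Set OnePoint CategoryTheory

namespace Vale.Agent.P263C25

open Vale.Agent.P263 Vale.Agent.P263A Vale.Agent.P263.FR Vale.Agent.P263.E Vale.Agent.P263.G2
  Vale.Agent.P263.TJ Vale.Agent.P263B25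

theorem vn_comp {Z : SS} {A : Sb Z} {u : Cc Z} (h : Vn A u) (n : ℕ) : Vn A (Cc.comp n u) := by
  intro p x hx
  by_cases hp : p = n
  · subst hp
    rw [Cc.comp_self]
    exact h p x hx
  · exact Cc.comp_of_ne hp u x

theorem pull_cmp {Y Z : SS} (f : SS.Map Y Z) (n : ℕ) (u : Cc Z) :
    Cc.pull f (Cc.comp n u) = Cc.comp n (Cc.pull f u) := rfl

theorem comp_zero' {Z : SS} (n : ℕ) : Cc.comp n (0 : Cc Z) = 0 :=
  Cc.comp_eq fun _ _ _ => rfl

/-- a primitive of the right degree -/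
theorem prim_deg {Z : SS} {n : ℕ} {u a : Cc Z} (hu : Cc.IsDeg (n + 1) u) (h : u = Cc.d a) :
    u = Cc.d (Cc.comp n a) := by
  rw [← Cc.comp_d, ← h, Cc.comp_eq hu]

variable {N : Bool → TopCat.{0}} {M : TopCat.{0}}

namespace Col

variable (X : Col N M)

/-- the inclusion of the collar -/
def inc (b : Bool) : C(X.U b, M) := ⟨Subtype.val, continuous_subtype_val⟩

theorem emb (b : Bool) : IsEmbedding (X.inc b) := IsEmbedding.subtypeVal

theorem range_inc (b : Bool) : Set.range (X.inc b) = X.U b := Subtype.range_coe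

/-- the positive half -/
def A : Set M := {x | 0 < X.s x}

/-- the negative half -/
def B : Set M := {x | X.s x < 0}

theorem oA : IsOpen X.A := isOpen_lt continuous_const X.s.continuous

theorem oB : IsOpen X.B := isOpen_lt X.s.continuous continuous_const

open Classical in
/-- the indicator of the positive half -/
noncomputable def chi : Cc (sing M) := fun p σ =>
  if p = 0 ∧ toC σ (stdSimplex.vertex 0) ∈ X.A then 1 else 0

theorem chi_deg : Cc.IsDeg 0 X.chi := fun _ hp _ => if_neg fun h => hp h.1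

theorem chi_B : Vn (inU X.B) X.chi := fun _ _ h =>
  if_neg fun h' => lt_asymm (show X.s _ < 0 from h (stdSimplex.vertex 0))
    (show 0 < X.s _ from h'.2)

theorem chi_A : Vn (inU X.A) (X.chi + Cc.one (sing M)) := by
  intro p σ h
  show X.chi p σ + Cc.one (sing M) p σ = 0
  by_cases hp : p = 0
  · rw [chi, if_pos ⟨hp, h _⟩, Cc.one, if_pos hp]
    rfl
  · rw [X.chi_deg p hp, Cc.one, if_neg hp, add_zero]

theorem dchi_A : Vn (inU X.A) (Cc.d X.chi) := by
  have h := X.chi_A.d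
  rwa [TJ.d_add, d_one, add_zero] at h

theorem dchi_B : Vn (inU X.B) (Cc.d X.chi) := X.chi_B.d

/-- glueing of cochains on the collars -/
noncomputable def ext (β : ∀ b, Cc (sing (X.U b))) : Cc (sing M) :=
  extJ (X.emb false) (β false) + extJ (X.emb true) (β true)

theorem pull_other {b b' : Bool} (h : Disjoint (X.U b) (X.U b')) (β : Cc (sing (X.U b'))) :
    Cc.pull (singMap (X.inc b)) (extJ (X.emb b') β) = 0 := by
  funext p τ
  refine dif_neg fun h1 => ?_
  have h2 := h1 (stdSimplex.vertex 0)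
  rw [X.range_inc] at h2
  exact Set.disjoint_left.1 h (toC τ (stdSimplex.vertex 0)).2 h2

theorem pull_ext (β : ∀ b, Cc (sing (X.U b))) (b : Bool) :
    Cc.pull (singMap (X.inc b)) (X.ext β) = β b := by
  rw [ext, pull_add]
  cases b
  · rw [pull_extJ, X.pull_other X.dis, add_zero]
  · rw [pull_extJ, X.pull_other X.dis.symm, zero_add]

theorem vn_ext {S : Set M} {β : ∀ b, Cc (sing (X.U b))}
    (h : ∀ b, Vn ((inU S).comap (singMap (X.inc b))) (β b)) : Vn (inU S) (X.ext β) :=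
  (Vn_extJ _ (h false)).add (Vn_extJ _ (h true))

theorem deg_ext {n : ℕ} {β : ∀ b, Cc (sing (X.U b))} (h : ∀ b, Cc.IsDeg n (β b)) :
    Cc.IsDeg n (X.ext β) := isDeg_add (isDeg_extJ _ (h false)) (isDeg_extJ _ (h true))

theorem vn_U {b : Bool} {u : Cc (sing M)} :
    Vn (inU (X.U b)) u ↔ Cc.pull (singMap (X.inc b)) u = 0 := by
  have h := Vn_range_iff (u := u) (X.emb b)
  rwa [X.range_inc] at h

/-- small simplices -/
theorem small {u : Cc (sing M)} (du : Cc.d u = 0) (hA : Vn (inU X.A) u) (hB : Vn (inU X.B) u)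
    (hU : ∀ b, Cc.pull (singMap (X.inc b)) u = 0) : ∃ v : Cc (sing M), Cc.d v = u ∧
      Vn (inU X.A) v ∧ Vn (inU X.B) v ∧ ∀ b, Cc.pull (singMap (X.inc b)) v = 0 := by
  obtain ⟨v, h1, h2⟩ := cover_small (Y := M) (ι := Bool ⊕ Bool)
    (U := Sum.elim (fun b => cond b X.A X.B) X.U)
    (by
      rintro (b | b)
      · cases b
        · exact X.oB
        · exact X.oA
      · exact X.oU b)
    (fun y => by
      rcases lt_trichotomy (X.s y) 0 with h | h | h
      · exact ⟨.inl false, h⟩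
      · obtain ⟨b, hb⟩ := X.zero y h
        exact ⟨.inr b, hb⟩
      · exact ⟨.inl true, h⟩) du
    (by
      rintro (b | b)
      · cases b
        · exact hB
        · exact hA
      · exact X.vn_U.2 (hU b))
  exact ⟨v, h1, h2 (.inl true), h2 (.inl false), fun b => X.vn_U.1 (h2 (.inr b))⟩

/-- a cocycle which is a relative coboundary on the collars is a coboundary -/
theorem glue {e : Cc (sing M)} (de : Cc.d e = 0) (hA : Vn (inU X.A) e) (hB : Vn (inU X.B) e)
    (β : ∀ b, Cc (sing (X.U b))) (h : ∀ b, Cc.pull (singMap (X.inc b)) e = Cc.d (β b))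
    (h1 : ∀ b, Vn ((inU X.A).comap (singMap (X.inc b))) (β b))
    (h2 : ∀ b, Vn ((inU X.B).comap (singMap (X.inc b))) (β b)) : ∃ v, e = Cc.d v := by
  obtain ⟨v, hv, -⟩ := X.small (u := e + Cc.d (X.ext β)) (cyc_add de (TJ.d_d _))
    (hA.add (X.vn_ext h1).d) (hB.add (X.vn_ext h2).d) fun b => by
      rw [pull_add, pull_d, X.pull_ext, h, cc_self]
  refine ⟨v + X.ext β, ?_⟩
  rw [TJ.d_add, hv, add_assoc, cc_self, add_zero]

/-- the product with the jump -/
noncomputable def jmp (b : Bool) (w : Cc (sing (X.U b))) : Cc (sing (X.U b)) :=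
  Cc.cup 1 w (Cc.pull (singMap (X.inc b)) (Cc.d X.chi))

theorem jmp_A (b : Bool) (w : Cc (sing (X.U b))) :
    Vn ((inU X.A).comap (singMap (X.inc b))) (X.jmp b w) := Vn.cup_right 1 w (X.dchi_A.pull _)

theorem jmp_B (b : Bool) (w : Cc (sing (X.U b))) :
    Vn ((inU X.B).comap (singMap (X.inc b))) (X.jmp b w) := Vn.cup_right 1 w (X.dchi_B.pull _)

theorem d_jmp (b : Bool) (w : Cc (sing (X.U b))) : Cc.d (X.jmp b w) = X.jmp b (Cc.d w) := by
  rw [jmp, d_cup_one, ← pull_d, TJ.d_d, pull_zero, cup_zero_right, add_zero, jmp]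

theorem jmp_add (b : Bool) (w w' : Cc (sing (X.U b))) :
    X.jmp b (w + w') = X.jmp b w + X.jmp b w' := cup_add_left 1 _ _ _

theorem jmp_zero (b : Bool) : X.jmp b 0 = 0 := cup_zero_left 1 _

/-- the coboundary -/
structure Dl (k : ℕ) (x : ∀ b, Cc (sing (N b))) (e : Cc (sing M)) : Prop where
  deg : Cc.IsDeg (k + 1) e
  cyc : Cc.d e = 0
  vA : Vn (inU X.A) e
  vB : Vn (inU X.B) e
  loc : ∀ b, Cc.pull (singMap (X.inc b)) e = X.jmp b (Cc.pull (singMap (X.π b)) (x b))

theorem exists_dl {k : ℕ} {x : ∀ b, Cc (sing (N b))} (hx : ∀ b, Cc.IsDeg k (x b))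
    (dx : ∀ b, Cc.d (x b) = 0) : ∃ e, X.Dl k x e := by
  obtain ⟨u, hu⟩ : ∃ u, u = X.ext fun b => X.jmp b (Cc.pull (singMap (X.π b)) (x b)) := ⟨_, rfl⟩
  have h1 : Cc.IsDeg (k + 1) u := by
    rw [hu]
    exact X.deg_ext fun b => ((hx b).pull _).cup (X.chi_deg.d.pull _) (by omega)
  have hA : Vn (inU X.A) u := by rw [hu]; exact X.vn_ext fun b => X.jmp_A b _
  have hB : Vn (inU X.B) u := by rw [hu]; exact X.vn_ext fun b => X.jmp_B b _
  have hU : ∀ b, Cc.pull (singMap (X.inc b)) u = X.jmp b (Cc.pull (singMap (X.π b)) (x b)) :=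
    fun b => by rw [hu, X.pull_ext]
  obtain ⟨v, h2, h3, h4, h5⟩ := X.small (u := Cc.d u) (TJ.d_d u) hA.d hB.d fun b => by
    rw [pull_d, hU, X.d_jmp, cyc_pull _ (dx b), X.jmp_zero]
  refine ⟨u + Cc.comp (k + 1) v, isDeg_add h1 (Cc.isDeg_comp _ _), ?_, hA.add (vn_comp h3 _),
    hB.add (vn_comp h4 _), fun b => ?_⟩
  · rw [TJ.d_add, ← Cc.comp_d, h2, Cc.comp_eq h1.d, cc_self]
  · rw [pull_add, pull_cmp, h5, comp_zero', add_zero, hU]

variable {X}

theorem Dl.add {k : ℕ} {x x' : ∀ b, Cc (sing (N b))} {e e' : Cc (sing M)} (h : X.Dl k x e)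
    (h' : X.Dl k x' e') : X.Dl k (fun b => x b + x' b) (e + e') :=
  ⟨isDeg_add h.deg h'.deg, cyc_add h.cyc h'.cyc, h.vA.add h'.vA, h.vB.add h'.vB, fun b => by
    rw [pull_add, pull_add, X.jmp_add, h.loc, h'.loc]⟩

/-- cohomologous classes have cohomologous coboundaries -/
theorem Dl.coh {k : ℕ} {x x' : ∀ b, Cc (sing (N b))} {e e' : Cc (sing M)} (h : X.Dl k x e)
    (h' : X.Dl k x' e') (hx : ∀ b, ∃ a, x b + x' b = Cc.d a) : ∃ v, e + e' = Cc.d v := by
  choose a ha using hx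
  have h1 := h.add h'
  refine X.glue h1.cyc h1.vA h1.vB (fun b => X.jmp b (Cc.pull (singMap (X.π b)) (a b)))
    (fun b => ?_) (fun b => X.jmp_A b _) fun b => X.jmp_B b _
  rw [h1.loc, X.d_jmp, ← pull_d, ha]

/-- products -/
theorem Dl.cup {k l : ℕ} {x : ∀ b, Cc (sing (N b))} {e e' y : Cc (sing M)} (h : X.Dl k x e)
    (dx : ∀ b, Cc.d (x b) = 0) (dy : Cc.d y = 0)
    (h' : X.Dl l (fun b => Cc.cup 1 (Cc.pull (singMap (X.ι b)) y) (x b)) e') :
    ∃ v, Cc.cup 1 y e + e' = Cc.d v := by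
  choose β hβ using fun b => pull_htpc (X.h b) dy
  refine X.glue (cyc_add (cyc_cup dy h.cyc) h'.cyc) ((Vn.cup_right 1 y h.vA).add h'.vA)
    ((Vn.cup_right 1 y h.vB).add h'.vB)
    (fun b => X.jmp b (Cc.cup 1 (β b) (Cc.pull (singMap (X.π b)) (x b))))
    (fun b => ?_) (fun b => X.jmp_A b _) fun b => X.jmp_B b _
  rw [pull_add, pull_cup, h.loc, h'.loc, X.d_jmp, d_cup_one, cyc_pull _ (dx b), cup_zero_right,
    add_zero, ← hβ, cup_add_left, X.jmp_add, pull_cup, add_comm]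
  congr 1
  exact (TJ.cup_assoc _ _ _).symm

/-- **Exactness.** -/
theorem Dl.exact {k : ℕ} {x : ∀ b, Cc (sing (N b))} {e : Cc (sing M)} (h : X.Dl k x e)
    (dx : ∀ b, Cc.d (x b) = 0) (he : ∃ a, e = Cc.d a) :
    ∃ y : Cc (sing M), Cc.IsDeg k y ∧ Cc.d y = 0 ∧
      ∀ b, ∃ a, Cc.pull (singMap (X.ι b)) y + x b = Cc.d a := by
  obtain ⟨a₀, ha₀⟩ := he
  obtain ⟨a, ha, hea⟩ : ∃ a, Cc.IsDeg k a ∧ e = Cc.d a :=
    ⟨_, Cc.isDeg_comp k a₀, prim_deg h.deg ha₀⟩
  have hp : Cc.pull (singMap X.Pp) e = 0 := by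
    funext p σ
    exact h.vA p _ fun t => X.sp _
  have hm : Cc.pull (singMap X.Pm) e = 0 := by
    funext p σ
    exact h.vB p _ fun t => X.sm _
  refine ⟨Cc.pull (singMap X.Pp) a + Cc.pull (singMap X.Pm) a,
    isDeg_add (ha.pull _) (ha.pull _), ?_, fun b => ?_⟩
  · rw [TJ.d_add, ← pull_d, ← pull_d, ← hea, hp, hm, add_zero]
  · obtain ⟨κ, hκ⟩ : ∃ κ : Cc (sing (X.U b)), κ = Cc.pull (singMap (X.inc b)) a +
      Cc.cup 1 (Cc.pull (singMap (X.π b)) (x b)) (Cc.pull (singMap (X.inc b)) X.chi) := ⟨_, rfl⟩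
    have dκ : Cc.d κ = 0 := by
      rw [hκ, TJ.d_add, d_cup_one, cyc_pull _ (dx b), cup_zero_left, zero_add, ← pull_d, ← hea,
        h.loc, ← pull_d]
      exact cc_self _
    obtain ⟨γ, hγ⟩ := pull_htpc (X.hj b) dκ
    refine ⟨γ, ?_⟩
    have e1 : (X.inc b).comp (X.jp b) = X.Pp.comp (X.ι b) := ContinuousMap.ext (X.jp_eq b)
    have e2 : (X.inc b).comp (X.jm b) = X.Pm.comp (X.ι b) := ContinuousMap.ext (X.jm_eq b)
    have e3 : (X.π b).comp (X.jp b) = ContinuousMap.id _ := ContinuousMap.ext (X.πp b)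
    have f1 : Cc.pull (singMap ((X.inc b).comp (X.jp b))) X.chi = Cc.one _ := by
      have h1 : Cc.pull (singMap ((X.inc b).comp (X.jp b))) (X.chi + Cc.one (sing M)) = 0 := by
        rw [e1]
        funext p σ
        exact X.chi_A p _ fun t => X.sp _
      rw [pull_add, pull_one] at h1
      rw [← add_zero (Cc.one _), ← h1, add_left_comm, cc_self, add_zero]
    have f2 : Cc.pull (singMap ((X.inc b).comp (X.jm b))) X.chi = 0 := by
      rw [e2]
      funext p σ
      exact X.chi_B p _ fun t => X.sm _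
    have g1 : Cc.pull (singMap (X.jp b)) κ =
        Cc.pull (singMap (X.Pp.comp (X.ι b))) a + x b := by
      rw [hκ, pull_add, pull_cup, ← e1]
      congr 1
      show Cc.cup 1 (Cc.pull (singMap ((X.π b).comp (X.jp b))) (x b))
        (Cc.pull (singMap ((X.inc b).comp (X.jp b))) X.chi) = x b
      rw [f1, e3, TJ.cup_one]
      rfl
    have g2 : Cc.pull (singMap (X.jm b)) κ = Cc.pull (singMap (X.Pm.comp (X.ι b))) a := by
      rw [hκ, pull_add, pull_cup, ← e2]
      show Cc.pull (singMap ((X.inc b).comp (X.jm b))) a + Cc.cup 1 _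
        (Cc.pull (singMap ((X.inc b).comp (X.jm b))) X.chi) = _
      rw [f2, cup_zero_right, add_zero]
    rw [← hγ, g1, g2, add_right_comm]
    rfl

/-- the coboundary of a class with support at a point -/
theorem Dl.bump {k : ℕ} {x : ∀ b, Cc (sing (N b))} {e : Cc (sing M)} (h : X.Dl k x e) {b : Bool}
    [T2Space (N b)] {p : N b} (hp : Vn (inU {v | v ≠ p}) (x b)) (h0 : x (!b) = 0) :
    ∃ w : Cc (sing M), Bump (k + 1) (X.ι b p) w ∧ ∃ a, e + w = Cc.d a := by
  obtain ⟨W, hW⟩ : ∃ W : Set M, W = Subtype.val '' {y : X.U b | X.π b y ≠ p} := ⟨_, rfl⟩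
  have oW : IsOpen W := by
    rw [hW]
    exact (X.oU b).isOpenMap_subtype_val _ (isOpen_ne.preimage (X.π b).continuous)
  have vW : Vn (inU W) e := by
    intro n σ hσ
    have h1 : (inU (Set.range (X.inc b))).mem σ := fun t => by
      have h2 := hσ t
      rw [hW] at h2
      obtain ⟨y, -, hy⟩ := h2
      exact ⟨y, hy⟩
    obtain ⟨τ, rfl⟩ := exists_of_inU_range (X.emb b) h1
    have h3 : e n ((singMap (X.inc b)).app τ) = _ := congrFun (congrFun (h.loc b) n) τ
    rw [h3]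
    refine Vn.cup_left 1 (hp.pull (singMap (X.π b))) _ n τ fun t => ?_
    have h2 := hσ t
    rw [hW] at h2
    obtain ⟨y, hy, hy'⟩ := h2
    have h4 : y = toC τ t := Subtype.ext hy'
    rw [h4] at hy
    exact hy
  have vU : Vn (inU (X.U (!b))) e := X.vn_U.2 (by rw [h.loc, h0, pull_zero, X.jmp_zero])
  obtain ⟨w, -, hw⟩ := vanish_more (Y := M) (ι := Bool ⊕ Bool) (S := {y | y ≠ X.ι b p})
    (U := Sum.elim (fun i => cond i X.A X.B) fun i => cond i W (X.U (!b)))
    (by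
      rintro (i | i) <;> cases i
      · exact X.oB
      · exact X.oA
      · exact X.oU _
      · exact oW)
    (fun y hy => by
      rcases lt_trichotomy (X.s y) 0 with h1 | h1 | h1
      · exact Set.mem_iUnion.2 ⟨.inl false, h1⟩
      · obtain ⟨b', hb'⟩ := X.zero y h1
        by_cases h2 : b' = b
        · subst h2
          refine Set.mem_iUnion.2 ⟨.inr true, ?_⟩
          show y ∈ W
          rw [hW]
          refine ⟨⟨y, hb'⟩, fun h3 => hy ?_, rfl⟩
          rw [← h3]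
          exact (X.s0 b' ⟨y, hb'⟩ h1).symm
        · rw [Bool.eq_not.2 h2] at hb'
          exact Set.mem_iUnion.2 ⟨.inr false, hb'⟩
      · exact Set.mem_iUnion.2 ⟨.inl true, h1⟩)
    (c := e) (by rw [h.cyc]; exact Vn.zero)
    (by
      rintro (i | i) <;> cases i
      · exact h.vB
      · exact h.vA
      · exact vU
      · exact vW)
  refine ⟨e + Cc.d (Cc.comp k w), ⟨isDeg_add h.deg (Cc.isDeg_comp k w).d,
    cyc_add h.cyc (TJ.d_d _), ?_⟩, Cc.comp k w, ?_⟩
  · have h1 := vn_comp hw (k + 1)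
    rwa [Cc.comp_add, Cc.comp_eq h.deg, Cc.comp_d] at h1
  · rw [← add_assoc, cc_self, zero_add]

end Col

end Vale.Agent.P263C25
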