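import Vale.Agent.P263C25.Lag

/-!
# P263C: homotopy invariance of the majority value
-/

open Topology Set OnePoint CategoryTheory

namespace Vale.Agent.P263C25

open Vale.Agent.P263 Vale.Agent.P263A Vale.Agent.P263.FR Vale.Agent.P263.E Vale.Agent.P263.G2
  Vale.Agent.P263.TJ Vale.Agent.P263B25

theorem good_reg {d i : ℕ} (hd : 0 < d) {F : ST.Sph (d + (i + 1)) ⟶ ST.Sph (i + 1)}
    (hF : F (ST.pt _) = ST.pt _) (hR : Regular F) [CompactSpace (Mfd F)] [T2Space (Mfd F)]
    {c : ST.Sph (d + (i + 1)) ⟶ Th (i + 1) (Mfd F)} (hc : IsCollapse F c)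
    {cN : C(T0.Sph (d + (i + 1)), TT (i + 1) (Mfd F))} (hcN : ∀ w, c w = cN w) : Good cN := by
  obtain ⟨D, l, hl⟩ := tub _ _ F hF hR
  have := D.compactSpace_Mfd
  have := D.t2Space_Mfd
  have h2 : cN ∞ = ∞ := (hcN _).symm.trans (collapse_pt hF hc)
  have G := lc_good D hd l
  have e : ∀ (u : Cc (sing (Mfd F))) (hu : Cc.IsDeg d u) (du : Cc.d u = 0),
      Int cN hu du = Int (D.lc (l : C(Mfd D.F, Mfd F))) hu du := fun u hu du =>
    Int_htpy hd h2 (hl c hc cN hcN) hu du
  exact G.homeo (Homeomorph.refl _) h2 e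

/-- the pull-back of classes as an additive map -/
noncomputable def pullA (q : ℕ) {X Y : TopCat.{0}} (f : C(X, Y)) : Coh q Y →+ Coh q X :=
  AddMonoidHom.mk' (Coh.pull (TopCat.ofHom f)) fun x y => LinearMap.add_comp _ y x

theorem pullA_cl {q : ℕ} {X Y : TopCat.{0}} (f : C(X, Y)) {u : Cc (sing Y)} (du : Cc.d u = 0) :
    pullA q f (FR.cl q u du) = FR.cl q (Cc.pull (singMap f) u) (cyc_pull f du) :=
  pull_cl (TopCat.ofHom f) u du _

/-- the algebraic part -/
theorem Col.maj (gauss : GAUSS) {N : Bool → TopCat.{0}} {M : TopCat.{0}}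
    [∀ b, CompactSpace (N b)] [∀ b, T2Space (N b)] [CompactSpace M] [T2Space M] {q i j : ℕ}
    (hq : 0 < q) (X : Col N M) {c : ∀ b, C(T0.Sph (q + q + (i + 1)), TT (i + 1) (N b))}
    {cM : C(T0.Sph (q + q + 1 + (j + 1)), TT (j + 1) M)} (G : ∀ b, Good (d := q + q) (c b))
    (GM : Good (d := q + q + 1) cM) (hM : NDA (d := q + q + 1) cM)
    (hH : ((thm (K := i + 1) (X.ι false)).comp (c false)).HomotopicRel
      ((thm (K := i + 1) (X.ι true)).comp (c true)) {∞})
    (Q : ∀ b, QF (N b) q)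
    (hF : ∀ b u hu du, (Q b).F u hu du = Phi (d := q + q) (c b) (G b).base hu du)
    (hI : ∀ b u hu du, (Q b).I u hu du = Int (d := q + q) (c b) hu du) :
    Nat.card (Coh q (N false)) < 2 * Nat.card {x // (Q false).phi x = 1} ↔
      Nat.card (Coh q (N true)) < 2 * Nat.card {x // (Q true).phi x = 1} := by
  have hd : 0 < q + q := by omega
  have h0 : Finite (Coh q (N false)) := finite_coh ((G false).fin q)
  have h1 : Finite (Coh q (N true)) := finite_coh ((G true).fin q)
  refine gauss _ _ (Coh q M) (Q false).phi (Q true).phi (Q false).bil (Q true).bil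
    (pullA q (X.ι false)) (pullA q (X.ι true)) (Q false).phi_add (Q true).phi_add
    (Q false).bil_add (Q true).bil_add (fun y => ?_) fun x₀ x₁ h => ?_
  · obtain ⟨u, du, hu, rfl⟩ := exists_cl y
    have h2 : ∀ b, (Q b).phi (pullA q (X.ι b) (FR.cl q u du)) =
        Phi (d := q + q) _ (Col.thm_base (X := X) (fun b => (G b).base) b) hu du := fun b => by
      rw [pullA_cl]
      exact ((Q b).phi_cl _ (hu.pull _) _).trans ((hF b _ _ _).trans
        (Phi_nat (X.ι b) hd hu du _ _).symm)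
    rw [h2, h2]
    exact Phi_htpy hd hH hu du
  · let x : ∀ b, Coh q (N b) := fun b => Bool.rec x₀ x₁ b
    have h2 : ∀ b (y : Cc (sing M)) (hy : Cc.IsDeg q y) (dy : Cc.d y = 0),
        (Q b).bil (pullA q (X.ι b) (FR.cl q y dy)) (x b) =
        Int (d := q + q) (c b) (isDeg_cup1 (hy.pull (singMap (X.ι b))) (rep_deg (x b)))
          (cyc_cup (cyc_pull _ dy) (rep_cyc (x b))) := fun b y hy dy => by
      rw [pullA_cl, ← hI]
      refine Eq.trans ?_ ((Q b).bil_cl _ _ (hy.pull _) (rep_deg (x b)) (cyc_pull _ dy)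
        (rep_cyc (x b)))
      exact congrArg _ (cl_rep (x b)).symm
    obtain ⟨y, hy, dy, h3⟩ := Col.lag hq G GM hM hH (fun b => rep_deg (x b))
      (fun b => rep_cyc (x b)) fun y hy dy => by
        rw [← h2 false y hy dy, ← h2 true y hy dy]
        exact h _
    have h4 : ∀ b, pullA q (X.ι b) (FR.cl q y dy) = x b := fun b => by
      rw [pullA_cl, ← cl_rep (x b)]
      exact (cl_eq_iff _ _ (hy.pull _) (rep_deg _)).2 (h3 b)
    exact ⟨_, h4 false, h4 true⟩

/-- **Homotopy invariance.** -/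
theorem inv (fam : FAM) (dbl : DBL) (col : COL) (htp : HTP) (gauss : GAUSS) (hphi : PHI) :
    INV := by
  intro q i F c hq hF hR hc hh
  have hN : ∀ b, CompactSpace (Mfd (F b)) := fun b => compactSpace_Mfd (hF b)
  have hN2 : ∀ b, T2Space (Mfd (F b)) := fun b => t2Space_Mfd
  have hd : 0 < q + q := by omega
  let cN : ∀ b, C(T0.Sph (q + q + (i + 1)), TT (i + 1) (Mfd (F b))) := fun b => (c b).hom
  have hcN : ∀ b w, c b w = cN b w := fun _ _ => rfl
  have G : ∀ b, Good (d := q + q) (cN b) := fun b => good_reg hd (hF b) (hR b) (hc b) (hcN b)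
  obtain ⟨T⟩ := fam _ _ F hF hR hh
  obtain ⟨D, l, δ, ρ, hδ, hρ⟩ := dbl (q + q) i F T
  have := D.compactSpace_Mfd
  have := D.t2Space_Mfd
  have hM : CompactSpace T.M := l.compactSpace
  have hM2 : T2Space T.M := l.t2Space
  obtain ⟨X, hX⟩ := col _ _ F T
  have hH := htp _ _ F T hF hR c cN hc hcN T.M X.ι δ ρ hδ fun b v x hx => by
    have h1 : T.g (v.1, en b) = 0 :=
      at'_inj ((T.eqO b v.1 (en b) (T.zO b v) (by norm_num)).2.symm.trans v.2)
    refine Subtype.ext ((hρ x b (by rw [hx, h1]) (by rw [hx])).trans ?_)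
    rw [hx]
    exact (hX b v).symm
  let Q : ∀ b, QF (Mfd (F b)) q := fun b => QF.ofC (d := q + q) (i := i) hq (by omega) (cN b)
    (G b).base (nondeg_reg hq (hF b) (hR b) (hc b) (hcN b))
  have e : ∀ b, phi (c b) = (Q b).phi := fun b => funext fun x => by
    obtain ⟨u, du, hu, rfl⟩ := exists_cl x
    exact (hphi q i (F b) hq (hF b) (hR b) (c b) (cN b) (G b).base (hc b) (hcN b) u hu du).trans
      ((Q b).phi_cl u hu du).symm
  unfold Maj
  rw [e, e]
  exact X.maj gauss hq G (lc_good D (Nat.succ_pos _) l) (lc_nd D (Nat.succ_pos _) l) hH Q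
    (fun _ _ _ _ => rfl) fun _ _ _ _ => rfl

end Vale.Agent.P263C25
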