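import Vale.Agent.P263C25.Delta

/-!
# P263C: the image of the cohomology of the double is Lagrangian

* `Col.int_dl` : the integral of the coboundary is the sum of the integrals.
* `Col.lag` : a pair of classes orthogonal to the image lies in the image.
* `lc_nd` : duality for a framed manifold in all degrees.
-/

open Topology Set OnePoint CategoryTheory

namespace Vale.Agent.P263C25

open Vale.Agent.P263 Vale.Agent.P263A Vale.Agent.P263.FR Vale.Agent.P263.E Vale.Agent.P263.G2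
  Vale.Agent.P263.TJ Vale.Agent.P263B25

set_option linter.unusedSectionVars false

variable {N : Bool → TopCat.{0}} {M : TopCat.{0}} [∀ b, CompactSpace (N b)] [∀ b, T2Space (N b)]
  [CompactSpace M] [T2Space M] {d i j : ℕ}

/-- a class on one of the two pieces -/
noncomputable def sg (b : Bool) (w : Cc (sing (N b))) : ∀ b', Cc (sing (N b')) := Pi.single b w

theorem sg_same (b : Bool) (w : Cc (sing (N b))) : sg b w b = w := Pi.single_eq_same _ _

theorem sg_ne {b b' : Bool} (h : b' ≠ b) (w : Cc (sing (N b))) : sg b w b' = 0 :=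
  Pi.single_eq_of_ne h _

theorem sg_deg {b : Bool} {k : ℕ} {w : Cc (sing (N b))} (h : Cc.IsDeg k w) (b' : Bool) :
    Cc.IsDeg k (sg b w b') := by
  by_cases h1 : b' = b
  · subst h1
    rwa [sg_same]
  · rw [sg_ne h1]
    exact fun _ _ _ => rfl

theorem sg_cyc {b : Bool} {w : Cc (sing (N b))} (h : Cc.d w = 0) (b' : Bool) :
    Cc.d (sg b w b') = 0 := by
  by_cases h1 : b' = b
  · subst h1
    rwa [sg_same]
  · rw [sg_ne h1, TJ.d_zero]

namespace Col

variable {X : Col N M} {c : ∀ b, C(T0.Sph (d + (i + 1)), TT (i + 1) (N b))}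
  {cM : C(T0.Sph (d + 1 + (j + 1)), TT (j + 1) M)}

theorem thm_base (hc : ∀ b, c b ∞ = ∞) (b : Bool) :
    ((thm (K := i + 1) (X.ι b)).comp (c b)) ∞ = ∞ := by
  show thm (X.ι b) (c b ∞) = ∞
  rw [hc]
  rfl

theorem int_pull (hd : 0 < d) (hc : ∀ b, c b ∞ = ∞)
    (hH : ((thm (K := i + 1) (X.ι false)).comp (c false)).HomotopicRel
      ((thm (K := i + 1) (X.ι true)).comp (c true)) {∞})
    {y : Cc (sing M)} (hy : Cc.IsDeg d y) (dy : Cc.d y = 0) :
    Int (c false) (hy.pull (singMap (X.ι false))) (cyc_pull _ dy) =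
      Int (c true) (hy.pull (singMap (X.ι true))) (cyc_pull _ dy) := by
  rw [← Int_nat (X.ι false) hd (hc false) hy dy, ← Int_nat (X.ι true) hd (hc true) hy dy]
  exact Int_htpy hd (thm_base hc false) hH hy dy

theorem int_add (hM : cM ∞ = ∞) {x x' x'' : ∀ b, Cc (sing (N b))} {e e' e'' : Cc (sing M)}
    (h : X.Dl d x e) (h' : X.Dl d x' e') (h'' : X.Dl d x'' e'')
    (hx : ∀ b, ∃ a, x'' b + (x b + x' b) = Cc.d a) :
    Int cM h''.deg h''.cyc = Int cM h.deg h.cyc + Int cM h'.deg h'.cyc := by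
  rw [← Int_add (Nat.succ_pos d) hM h.deg h.cyc h'.deg h'.cyc (h.add h').deg (h.add h').cyc]
  exact Int_coh (Nat.succ_pos d) hM _ _ _ _ (h''.coh (h.add h') hx)

theorem int_bump (hd : 0 < d) (hc : ∀ b, c b ∞ = ∞) (GM : Good (d := d + 1) cM)
    (hH : ((thm (K := i + 1) (X.ι false)).comp (c false)).HomotopicRel
      ((thm (K := i + 1) (X.ι true)).comp (c true)) {∞})
    {b : Bool} {p : N b} {w : Cc (sing (N b))} (hw : Bump d p w)
    (h1 : Int (c b) hw.deg hw.cyc = 1) {e : Cc (sing M)} (h : X.Dl d (sg b w) e) :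
    Int cM h.deg h.cyc = 1 := by
  obtain ⟨v, hv, a, ha⟩ := h.bump (b := b) (p := p) (by rw [sg_same]; exact hw.vn)
    (sg_ne (Bool.not_ne_self b) w)
  rw [Int_coh (Nat.succ_pos d) GM.base h.deg h.cyc hv.deg hv.cyc ⟨a, ha⟩]
  refine Int_bump_eq_one (Nat.succ_pos d) GM.base GM.nd hv fun h0 => ?_
  obtain ⟨a', ha'⟩ := (cl_eq_zero_iff hv.cyc hv.deg).1 h0
  obtain ⟨y, hy, dy, h2⟩ := h.exact (sg_cyc hw.cyc) ⟨a + a', by
    rw [TJ.d_add, ← ha, ← ha', add_assoc, cc_self, add_zero]⟩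
  have h3 : ∀ b', Int (c b') (hy.pull (singMap (X.ι b'))) (cyc_pull _ dy) =
      Int (c b') (sg_deg hw.deg b') (sg_cyc hw.cyc b') := fun b' =>
    Int_coh hd (hc b') _ _ _ _ (h2 b')
  have h4 := int_pull hd hc hH hy dy
  rw [h3, h3] at h4
  have h5 : Int (c b) (sg_deg hw.deg b) (sg_cyc hw.cyc b) = 1 :=
    (Int_congr (sg_same b w) _ _ _ _).trans h1
  have h6 : Int (c (!b)) (sg_deg hw.deg (!b)) (sg_cyc hw.cyc (!b)) = 0 :=
    Int_zero hd (hc _) (sg_ne (Bool.not_ne_self b) w) _ _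
  cases b
  · exact one_ne_zero (h5.symm.trans (h4.trans h6))
  · exact one_ne_zero (h5.symm.trans (h4.symm.trans h6))

theorem int_sg (hd : 0 < d) (G : ∀ b, Good (c b)) (GM : Good (d := d + 1) cM)
    (hH : ((thm (K := i + 1) (X.ι false)).comp (c false)).HomotopicRel
      ((thm (K := i + 1) (X.ι true)).comp (c true)) {∞})
    {b : Bool} {w : Cc (sing (N b))} (hw : Cc.IsDeg d w) (dw : Cc.d w = 0) {e : Cc (sing M)}
    (h : X.Dl d (sg b w) e) : Int cM h.deg h.cyc = Int (c b) hw dw := by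
  choose E hE using fun x : Coh d (N b) =>
    X.exists_dl (sg_deg (rep_deg x)) (sg_cyc (rep_cyc x))
  have hsg : ∀ {u v : Cc (sing (N b))}, (∃ a, u + v = Cc.d a) →
      ∀ b', ∃ a, sg b u b' + sg b v b' = Cc.d a := by
    intro u v huv b'
    by_cases h1 : b' = b
    · subst h1
      rwa [sg_same, sg_same]
    · exact ⟨0, by rw [sg_ne h1, sg_ne h1, add_zero, TJ.d_zero]⟩
  have hcl : ∀ {u : Cc (sing (N b))} (hu : Cc.IsDeg d u) (du : Cc.d u = 0) {f : Cc (sing M)}
      (hf : X.Dl d (sg b u) f), Int cM (hE (FR.cl d u du)).deg (hE (FR.cl d u du)).cyc =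
        Int cM hf.deg hf.cyc := fun hu du f hf =>
    Int_coh (Nat.succ_pos d) GM.base _ _ _ _ ((hE _).coh hf
      (hsg ((cl_eq_iff _ du (rep_deg _) hu).1 (cl_rep _))))
  let J : Coh d (N b) →ₗ[ZMod 2] ZMod 2 := AddMonoidHom.toZModLinearMap 2
    (AddMonoidHom.mk' (fun x => Int cM (hE x).deg (hE x).cyc) fun x y => by
      refine int_add GM.base (hE x) (hE y) (hE (x + y)) fun b' => ?_
      have h1 : sg b (rep x) b' + sg b (rep y) b' = sg b (rep x + rep y) b' := by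
        by_cases h0 : b' = b
        · subst h0
          rw [sg_same, sg_same, sg_same]
        · rw [sg_ne h0, sg_ne h0, sg_ne h0, add_zero]
      rw [h1]
      refine hsg ((cl_eq_iff (rep_cyc _) (cyc_add (rep_cyc x) (rep_cyc y)) (rep_deg _)
        (isDeg_add (rep_deg x) (rep_deg y))).1 ?_) b'
      rw [cl_add d _ _ (rep_cyc x) (rep_cyc y), cl_rep, cl_rep, cl_rep])
  choose v hv h1 using (G b).bump
  have h2 : J = intL hd (c b) (G b).base := by
    refine LinearMap.ext_on_range (span_bump hd (G b).base (G b).nd ((G b).fin 0) hv h1)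
      fun p => ?_
    obtain ⟨f, hf⟩ := X.exists_dl (sg_deg (hv p).deg) (sg_cyc (hv p).cyc)
    rw [intL_cl hd _ (hv p).deg, h1]
    exact (hcl (hv p).deg (hv p).cyc hf).trans
      (int_bump hd (fun b => (G b).base) GM hH (hv p) (h1 p) hf)
  rw [← intL_cl hd (G b).base hw dw, ← h2]
  exact (hcl hw dw h).symm

/-- **The integral of the coboundary.** -/
theorem int_dl (hd : 0 < d) (G : ∀ b, Good (c b)) (GM : Good (d := d + 1) cM)
    (hH : ((thm (K := i + 1) (X.ι false)).comp (c false)).HomotopicRel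
      ((thm (K := i + 1) (X.ι true)).comp (c true)) {∞})
    {w : ∀ b, Cc (sing (N b))} (hw : ∀ b, Cc.IsDeg d (w b)) (dw : ∀ b, Cc.d (w b) = 0)
    {e : Cc (sing M)} (h : X.Dl d w e) :
    Int cM h.deg h.cyc = Int (c false) (hw false) (dw false) + Int (c true) (hw true) (dw true) := by
  obtain ⟨e₀, h₀⟩ := X.exists_dl (sg_deg (hw false)) (sg_cyc (dw false))
  obtain ⟨e₁, h₁⟩ := X.exists_dl (sg_deg (hw true)) (sg_cyc (dw true))
  rw [← int_sg hd G GM hH _ _ h₀, ← int_sg hd G GM hH _ _ h₁]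
  refine int_add GM.base h₀ h₁ h fun b => ⟨0, ?_⟩
  cases b
  · rw [sg_same, sg_ne (by decide), add_zero, cc_self, TJ.d_zero]
  · rw [sg_same, sg_ne (by decide), zero_add, cc_self, TJ.d_zero]

end Col

/-- duality in all degrees -/
def NDA {M : Type} [TopologicalSpace M] [CompactSpace M] [T2Space M] {d i : ℕ}
    (c : C(T0.Sph (d + (i + 1)), TT (i + 1) M)) : Prop :=
  ∀ (q : ℕ) (u : Cc (sing M)), Cc.IsDeg q u → Cc.d u = 0 →
    (∀ (a : Cc (sing M)) (p : ℕ), Cc.IsDeg p a → Cc.d a = 0 → p + q = d →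
      ∀ (h1 : Cc.IsDeg d (Cc.cup 1 a u)) (h2 : Cc.d (Cc.cup 1 a u) = 0), Int c h1 h2 = 0) →
    ∃ a, u = Cc.d a

/-- **The image of the cohomology of `M` contains its orthogonal complement.** -/
theorem Col.lag {q : ℕ} (hq : 0 < q) {X : Col N M}
    {c : ∀ b, C(T0.Sph (q + q + (i + 1)), TT (i + 1) (N b))}
    {cM : C(T0.Sph (q + q + 1 + (j + 1)), TT (j + 1) M)} (G : ∀ b, Good (d := q + q) (c b))
    (GM : Good (d := q + q + 1) cM) (hM : NDA (d := q + q + 1) cM)
    (hH : ((thm (K := i + 1) (X.ι false)).comp (c false)).HomotopicRel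
      ((thm (K := i + 1) (X.ι true)).comp (c true)) {∞})
    {x : ∀ b, Cc (sing (N b))} (hx : ∀ b, Cc.IsDeg q (x b)) (dx : ∀ b, Cc.d (x b) = 0)
    (h : ∀ (y : Cc (sing M)) (hy : Cc.IsDeg q y) (dy : Cc.d y = 0),
      Int (d := q + q) (c false) (isDeg_cup1 (hy.pull (singMap (X.ι false))) (hx false))
        (cyc_cup (cyc_pull _ dy) (dx false)) =
      Int (d := q + q) (c true) (isDeg_cup1 (hy.pull (singMap (X.ι true))) (hx true))
        (cyc_cup (cyc_pull _ dy) (dx true))) :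
    ∃ y : Cc (sing M), Cc.IsDeg q y ∧ Cc.d y = 0 ∧
      ∀ b, ∃ a, Cc.pull (singMap (X.ι b)) y + x b = Cc.d a := by
  obtain ⟨e, he⟩ := X.exists_dl hx dx
  refine he.exact dx (hM (q + 1) e he.deg he.cyc fun y p hy dy hp h1 h2 => ?_)
  obtain rfl : p = q := by omega
  have h3 : ∀ b, Cc.IsDeg (p + p) (Cc.cup 1 (Cc.pull (singMap (X.ι b)) y) (x b)) := fun b =>
    isDeg_cup1 (hy.pull _) (hx b)
  have h4 : ∀ b, Cc.d (Cc.cup 1 (Cc.pull (singMap (X.ι b)) y) (x b)) = 0 := fun b =>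
    cyc_cup (cyc_pull _ dy) (dx b)
  obtain ⟨e', he'⟩ := X.exists_dl h3 h4
  rw [Int_coh (Nat.succ_pos _) GM.base h1 h2 he'.deg he'.cyc (he.cup dx dy he'),
    Col.int_dl (by omega) G GM hH h3 h4 he', h y hy dy]
  exact CharTwo.add_self_eq_zero _

section tub

variable (D : Tub (d + (i + 1)) (i + 1)) [CompactSpace (Mfd D.F)] [T2Space (Mfd D.F)]

theorem tub_nda (hd : 0 < d) : NDA (cD D) := by
  intro q u hu du hI
  obtain ⟨T, hT, hH⟩ := D.exists_Th
  have hm : 0 < d + (i + 1) := by omega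
  obtain ⟨ι, _, x, s, hs⟩ := kun_top' (X := Mfd D.F) (Y := Mfd D.F) (fun j _ => D.finC j)
    (isDeg_DstN_uhat hm T) (d_DstN_uhat hm hT)
  refine FR.nondeg (β := fun k => (x k).b) (α := fun k => (x k).a) (r := fun k => (x k).m)
    (p := fun k => (x k).n) (c := cD D) hd (T := T) (Θ := D.Th T hT)
    (c₁ := D.cM) D.c0_infty hT (D.Th_infty hT) ?_ (fun z p => rfl) ?_ (fun k => (x k).hb)
    (fun k => (x k).db) (fun k => (x k).ha) (fun k => (x k).da) (s₀ := s) ?_ hu du hI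
  · rintro z ⟨x, p⟩
    rw [smP_eq_prT, smP_eq_prT, D.Th_prT]
  · have h1 : D.jM = smP (d + (i + 1)) (Mfd D.F) := by
      apply ContinuousMap.ext
      rintro ⟨z, p⟩
      exact (smP_eq_prT z p).symm
    rw [← h1]
    exact hH.homotopic
  · exact cc_of_eq hs

theorem lc_nd (hd : 0 < d) (l : Mfd D.F ≃ₜ M) :
    NDA (d := d) (i := i) (D.lc (l : C(Mfd D.F, M))) := by
  intro q u hu du hI
  have e : D.lc (l : C(Mfd D.F, M)) = (thm (l : C(Mfd D.F, M))).comp (cD D) :=
    ContinuousMap.ext fun z => D.lc_apply _ z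
  obtain ⟨b, hb⟩ := tub_nda D hd q (Cc.pull (singMap (l : C(Mfd D.F, M))) u) (hu.pull _)
    (cyc_pull _ du) fun a p ha da hp h1 h2 => by
      have h3 : Cc.IsDeg d (Cc.cup 1 (Cc.pull (singMap (l.symm : C(M, Mfd D.F))) a) u) :=
        (ha.pull _).cup hu (by omega)
      have h4 := cyc_cup (cyc_pull (l.symm : C(M, Mfd D.F)) da) du
      rw [← hI _ p (ha.pull _) (cyc_pull _ da) hp h3 h4, e,
        Int_nat (c := cD D) (l : C(Mfd D.F, M)) hd D.c0_infty h3 h4 (h3.pull _) (cyc_pull _ h4)]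
      refine Int_congr (N := Mfd D.F) ?_ _ _ _ _
      rw [pull_cup, pull_symm']
  refine ⟨Cc.pull (singMap (l.symm : C(M, Mfd D.F))) b, ?_⟩
  rw [← pull_d, ← hb, pull_symm]

end tub

end Vale.Agent.P263C25
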