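import Vale.Agent.P263B6.Top

/-!
# P263C: invariance of the Arf invariant, the rows
-/

open Topology Set OnePoint CategoryTheory

namespace Vale.Agent.P263C25

open Vale.Agent.P263 Vale.Agent.P263A Vale.Agent.P263.FR Vale.Agent.P263.E Vale.Agent.P263.G2
  Vale.Agent.P263.TJ

/-- the form takes the value one on more than half of the classes -/
def Maj {m n : ℕ} (q : ℕ) {N : TopCat.{0}} (c : ST.Sph m ⟶ Th n N) : Prop :=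
  Nat.card (Coh q N) < 2 * Nat.card {x : Coh q N // phi c x = 1}

/-- the two ends of the interval -/
def en (b : Bool) : ℝ := cond b 1 0

/-- a smooth regular family `g (z, t)` from the germ of `F false` to the germ of `F true` -/
structure Fam {m K : ℕ} (F : Bool → (ST.Sph m ⟶ ST.Sph K)) where
  g : (Fin m → ℝ) × ℝ → (Fin K → ℝ)
  smooth : ContDiff ℝ ((⊤ : ℕ∞) : WithTop ℕ∞) g
  C : Set ((Fin m → ℝ) × ℝ)
  V : Set ((Fin m → ℝ) × ℝ)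
  cC : IsCompact C
  oV : IsOpen V
  sub : V ⊆ C
  far : ∀ x ∈ C, 0 ≤ x.2 → x.2 ≤ 1 → g x = 0 → x ∈ V
  reg : ∀ x ∈ C, g x = 0 → Function.Surjective (fderiv ℝ g x)
  O : Bool → Set (Fin m → ℝ)
  oO : ∀ b, IsOpen (O b)
  zO : ∀ b (v : Mfd (F b)), v.1 ∈ O b
  eqO : ∀ b z t, z ∈ O b → |t - en b| ≤ 1 / 4 → (z, t) ∈ V ∧ F b (ST.at' z) = ST.at' (g (z, t))
  zero : ∀ b z t, (z, t) ∈ C → |t - en b| ≤ 1 / 4 → g (z, t) = 0 → F b (ST.at' z) = ST.at' 0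

/-- the double of the trace of the family -/
def Fam.M {m K : ℕ} {F : Bool → (ST.Sph m ⟶ ST.Sph K)} (T : Fam F) : TopCat.{0} :=
  TopCat.of {x : ((Fin m → ℝ) × ℝ) × ℝ // x.1 ∈ T.C ∧ T.g x.1 = 0 ∧ x.2 ^ 2 = x.1.2 - x.1.2 ^ 2}

/-- the points near the trace -/
def Fam.Nb {m K : ℕ} {F : Bool → (ST.Sph m ⟶ ST.Sph K)} (T : Fam F) (δ : ℝ) :
    Set ((Fin m → ℝ) × ℝ) := {x | x ∈ T.C ∧ 0 ≤ x.2 ∧ x.2 ≤ 1 ∧ ‖T.g x‖ ≤ δ}

/-- `M` is cut into two halves `s > 0`, `s < 0` along `N false` and `N true`, which have collars,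
and `M` can be folded into each half -/
structure Col (N : Bool → TopCat.{0}) (M : TopCat.{0}) where
  ι : ∀ b, C(N b, M)
  s : C(M, ℝ)
  U : Bool → Set M
  oU : ∀ b, IsOpen (U b)
  dis : Disjoint (U false) (U true)
  zero : ∀ x, s x = 0 → ∃ b, x ∈ U b
  π : ∀ b, C(U b, N b)
  s0 : ∀ b (x : U b), s x.1 = 0 → ι b (π b x) = x.1
  h : ∀ b, ((ι b).comp (π b)).Homotopic (⟨Subtype.val, continuous_subtype_val⟩ : C(U b, M))
  Pp : C(M, M)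
  Pm : C(M, M)
  sp : ∀ x, 0 < s (Pp x)
  sm : ∀ x, s (Pm x) < 0
  jp : ∀ b, C(N b, U b)
  jm : ∀ b, C(N b, U b)
  jp_eq : ∀ b v, (jp b v).1 = Pp (ι b v)
  jm_eq : ∀ b v, (jm b v).1 = Pm (ι b v)
  πp : ∀ b v, π b (jp b v) = v
  hj : ∀ b, (jp b).Homotopic (jm b)

/-- relative regular approximation -/
def REL : Prop := ∀ (E : Type) [NormedAddCommGroup E] [NormedSpace ℝ E] [FiniteDimensional ℝ E]
  (K : ℕ) (C W A : Set E) (a : E → (Fin K → ℝ)), IsCompact C → IsOpen W → IsCompact A → A ⊆ W →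
  ContinuousOn a C → ContDiffOn ℝ ((⊤ : ℕ∞) : WithTop ℕ∞) a W →
  (∀ x ∈ W, a x = 0 → Function.Surjective (fderiv ℝ a x)) → ∀ ε : ℝ, 0 < ε →
  ∃ g : E → (Fin K → ℝ), ContDiff ℝ ((⊤ : ℕ∞) : WithTop ℕ∞) g ∧ (∀ x ∈ C, ‖g x - a x‖ ≤ ε) ∧
    (∀ x ∈ A, g x = a x) ∧ ∀ x ∈ C, g x = 0 → Function.Surjective (fderiv ℝ g x)

/-- the family of a homotopy (from `REL`) -/
def FAM : Prop := ∀ (m K : ℕ) (F : Bool → (ST.Sph m ⟶ ST.Sph K)),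
  (∀ b, F b (ST.pt m) = ST.pt K) → (∀ b, Regular (F b)) →
  ST.Htpc (ST.pt m) (F false) (F true) → Nonempty (Fam F)

/-- the double is a closed framed manifold, and a retract of a neighbourhood -/
def DBL : Prop := ∀ (d i : ℕ) (F : Bool → (ST.Sph (d + (i + 1)) ⟶ ST.Sph (i + 1))) (T : Fam F),
  ∃ (D : Tub (d + 1 + (i + 1 + 1)) (i + 1 + 1)) (_ : Mfd D.F ≃ₜ T.M) (δ : ℝ) (ρ : C(T.Nb δ, T.M)),
    0 < δ ∧ ∀ (x : T.Nb δ) (b : Bool), T.g x.1 = 0 → x.1.2 = en b → (ρ x).1 = (x.1, 0)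

/-- the collars of the double -/
def COL : Prop := ∀ (m K : ℕ) (F : Bool → (ST.Sph m ⟶ ST.Sph K)) (T : Fam F),
  ∃ X : Col (fun b => Mfd (F b)) T.M, ∀ b (v : Mfd (F b)), (X.ι b v).1 = ((v.1, en b), 0)

/-- the two collapse maps are homotopic over the trace -/
def HTP : Prop := ∀ (m K : ℕ) (F : Bool → (ST.Sph m ⟶ ST.Sph K)) (T : Fam F),
  (∀ b, F b (ST.pt m) = ST.pt K) → (∀ b, Regular (F b)) →
  ∀ [∀ b, CompactSpace (Mfd (F b))] [∀ b, T2Space (Mfd (F b))]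
    (c : ∀ b, ST.Sph m ⟶ Th K (Mfd (F b))) (cN : ∀ b, C(T0.Sph m, TT K (Mfd (F b)))),
    (∀ b, IsCollapse (F b) (c b)) → (∀ b w, c b w = cN b w) →
  ∀ (P : Type) [TopologicalSpace P] [CompactSpace P] [T2Space P] (ι : ∀ b, C(Mfd (F b), P))
    (δ : ℝ) (ρ : C(T.Nb δ, P)), 0 < δ →
    (∀ b (v : Mfd (F b)) (x : T.Nb δ), x.1 = (v.1, en b) → ρ x = ι b v) →
    ((thm (K := K) (ι false)).comp (cN false)).HomotopicRel
      ((thm (K := K) (ι true)).comp (cN true)) {∞}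

/-- two forms which agree on a Lagrangian have the same majority value -/
def GAUSS : Prop := ∀ (V₀ V₁ Y : Type) [AddCommGroup V₀] [AddCommGroup V₁] [AddCommGroup Y]
  [Finite V₀] [Finite V₁] (φ₀ : V₀ → ZMod 2) (φ₁ : V₁ → ZMod 2) (B₀ : V₀ → V₀ → ZMod 2)
  (B₁ : V₁ → V₁ → ZMod 2) (r₀ : Y →+ V₀) (r₁ : Y →+ V₁),
  (∀ x y, φ₀ (x + y) = φ₀ x + φ₀ y + B₀ x y) → (∀ x y, φ₁ (x + y) = φ₁ x + φ₁ y + B₁ x y) →
  (∀ x y z, B₀ (x + y) z = B₀ x z + B₀ y z) → (∀ x y z, B₁ (x + y) z = B₁ x z + B₁ y z) →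
  (∀ y, φ₀ (r₀ y) = φ₁ (r₁ y)) →
  (∀ x₀ x₁, (∀ y, B₀ (r₀ y) x₀ = B₁ (r₁ y) x₁) → ∃ y, r₀ y = x₀ ∧ r₁ y = x₁) →
  (Nat.card V₀ < 2 * Nat.card {x // φ₀ x = 1} ↔ Nat.card V₁ < 2 * Nat.card {x // φ₁ x = 1})

/-- `phi` is computed by `Phi` -/
def PHI : Prop := ∀ (q i : ℕ) (F : ST.Sph (q + q + (i + 1)) ⟶ ST.Sph (i + 1)), 0 < q →
  F (ST.pt _) = ST.pt _ → Regular F → ∀ [CompactSpace (Mfd F)] [T2Space (Mfd F)]
  (c : ST.Sph (q + q + (i + 1)) ⟶ Th (i + 1) (Mfd F))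
  (cN : C(T0.Sph (q + q + (i + 1)), TT (i + 1) (Mfd F))) (hN : cN ∞ = ∞), IsCollapse F c →
  (∀ w, c w = cN w) → ∀ (u : Cc (sing (Mfd F))) (hu : Cc.IsDeg q u) (du : Cc.d u = 0),
    phi c (FR.cl (X := Mfd F) q u du) = Phi (d := q + q) cN hN hu du

/-- suspension of a framed manifold (from `PHI`) -/
def SUS : Prop := ∀ (q n : ℕ) (g : ST.BMap (q + q)) (F₀ F : ST.Sph (q + q + n) ⟶ ST.Sph n)
  (c : ST.Sph (q + q + n) ⟶ Th n (Mfd F)), 0 < q → ST.Rep g F₀ →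
  ST.Htpc (ST.pt _) F₀ F → Regular F → IsCollapse F c →
  ∃ (F₀' F' : ST.Sph (q + q + (n + 1)) ⟶ ST.Sph (n + 1))
    (c' : ST.Sph (q + q + (n + 1)) ⟶ Th (n + 1) (Mfd F')), ST.Rep g F₀' ∧
    ST.Htpc (ST.pt _) F₀' F' ∧ Regular F' ∧ IsCollapse F' c' ∧ (Maj q c ↔ Maj q c')

/-- homotopic maps to `Q₀S⁰` have homotopic representatives -/
def REPS : Prop := ∀ (d : ℕ) (g g' : ST.BMap d), ST.Htpc (ST.pt d) g.hom g'.hom →
  ∃ r₀ : ℕ, ∀ r, r₀ ≤ r → ∀ G G' : ST.Sph (d + r) ⟶ ST.Sph r, ST.Rep g G → ST.Rep g' G' →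
    ST.Htpc (ST.pt (d + r)) G G'

/-- homotopy invariance of the majority value -/
def INV : Prop := ∀ (q i : ℕ) (F : Bool → (ST.Sph (q + q + (i + 1)) ⟶ ST.Sph (i + 1)))
  (c : ∀ b, ST.Sph (q + q + (i + 1)) ⟶ Th (i + 1) (Mfd (F b))), 0 < q →
  (∀ b, F b (ST.pt _) = ST.pt _) → (∀ b, Regular (F b)) → (∀ b, IsCollapse (F b) (c b)) →
  ST.Htpc (ST.pt _) (F false) (F true) → (Maj q (c false) ↔ Maj q (c true))

/-- **The Arf invariant is an invariant of the class in `π_d(Q₀S⁰)`** (from `INV SUS REPS`). -/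
def WELL : Prop := ∀ (d q n n' r r' : ℕ) (h : q + q = d) (g g' : ST.BMap d)
  (F₀ F : ST.Sph (d + n) ⟶ ST.Sph n) (F₀' F' : ST.Sph (d + n') ⟶ ST.Sph n')
  (c : ST.Sph (d + n) ⟶ Th n (Mfd F)) (c' : ST.Sph (d + n') ⟶ Th n' (Mfd F'))
  (z : (ST.H d).obj (Mfd F)) (z' : (ST.H d).obj (Mfd F'))
  (e : Module.Basis (Fin r ⊕ Fin r) (ZMod 2) (Coh q (Mfd F)))
  (e' : Module.Basis (Fin r' ⊕ Fin r') (ZMod 2) (Coh q (Mfd F'))), 0 < q →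
  ST.Htpc (ST.pt d) g.hom g'.hom →
  ST.Rep g F₀ → ST.Htpc (ST.pt (d + n)) F₀ F → Regular F → IsCollapse F c → IsFund z →
  IsSymplectic (fun x y => cup h x y z) e →
  ST.Rep g' F₀' → ST.Htpc (ST.pt (d + n')) F₀' F' → Regular F' → IsCollapse F' c' → IsFund z' →
  IsSymplectic (fun x y => cup h x y z') e' → arf (phi c) e = arf (phi c') e'

end Vale.Agent.P263C25
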